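import Vale.Agent.P352X.R.POLY.Defs
import Vale.Agent.P352Z.P352X.R.TWO.Mu

open Vale.Agent.P352G

/-!
# P352X, row POLY: the analytic half, statements (helper21)
-/

set_option linter.all false

open MeasureTheory Measure Set Filter Topology
open scoped SchwartzMap ComplexConjugate NNReal ENNReal

namespace Vale.Agent.P352X.Poly

open Vale.Agent.P352.GF Vale.Agent.P352.BW Vale.Agent.P352.H496 Vale.Agent.P352.H755
open UniformSpace (Completion)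
open Two

noncomputable section

variable {D : Type*} [NormedAddCommGroup D] [InnerProductSpace ℂ D] [GrD D] (c : CtxZ D)

/-- `|ft g0| ^ 2 F` is the density of the overlap of `v` and `w` in the open cone -/
def DenZ (v w : Completion D) (F : V → ℂ) : Prop := ∀ G, Cp Fc G →
  inner ℂ v (c.bt.Phi G w) = ∫ p in Fc, G p * (conj (ft g0 p) * ft g0 p * F p)

/-- the part orthogonal to the vacuum -/
def pOZ (O : Sch →L[ℂ] Completion D) : Sch →L[ℂ] Completion D :=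
  O - (innerSL ℂ c.Om ∘L O).smulRight c.Om

/-- uniqueness of continuous densities -/
def UNIZ : Prop := ∀ v w F F', DenZ c v w F → DenZ c v w F' → ContinuousOn F Fc →
  ContinuousOn F' Fc → ∀ p ∈ Fc, F p = F' p

/-- covariance of the densities -/
def COVZ : Prop := ∀ (k l : ℕ) (d d' : ℝ) (Λ : (Fin k → Ix) → Sch →L[ℂ] Completion D)
  (Λ' : (Fin l → Ix) → Sch →L[ℂ] Completion D) (F : (Fin k → Ix) → (Fin l → Ix) → V → ℂ),
  MuZ c d Λ → MuZ c d' Λ' → (∀ J μ, DenZ c (Λ J gS) (Λ' μ gS) (F J μ)) →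
  (∀ J μ, ContinuousOn (F J μ) Fc) → ∀ J μ t L p, 0 < t → IsLor L → p ∈ Fc →
    F J μ (sim t L 0 p) = ((t ^ (d + d' - 4) : ℝ) : ℂ) * ∑ J' : Fin k → Ix, ∑ ν : Fin l → Ix,
      (((∏ i, L (J' i) (J i)) * ∏ i, L (ν i) (μ i) : ℝ) : ℂ) * F J' ν p

/-- conservation of the densities -/
def CONZ : Prop := ∀ (v : Ix → Completion D) w (F : Ix → V → ℂ),
  (∀ G, Cp Fc G → ∑ m, c.bt.Phi (fun p => G p * (eta m * p m : ℝ)) (v m) = 0) →
  (∀ m, DenZ c (v m) w (F m)) → (∀ m, ContinuousOn (F m) Fc) →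
  ∀ p ∈ Fc, ∑ m, ((eta m * p m : ℝ) : ℂ) * F m p = 0

/-- the parity rule -/
def PARZ : Prop := ∀ (k l : ℕ) (d d' : ℝ) (Λ : (Fin k → Ix) → Sch →L[ℂ] Completion D)
  (Λ' : (Fin l → Ix) → Sch →L[ℂ] Completion D) K A C (κ : ℂ) (a b : ℝ), MuZ c d Λ → MuZ c d' Λ' →
  Ad k K → Ad l K → IntegrableOn (fun p => κ * dn (fun p => K p * ft g0 p) a b p) Fc →
  (∀ G, SN.Bd G → inner ℂ (ZfZ c Λ K A) (c.bt.Phi G (ZfZ c Λ' K C)) =
    ∫ p in Fc, G p * (κ * dn (fun p => K p * ft g0 p) a b p)) → κ ≠ 0 → Even (nU A + nU C)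

/-- from the reference function to all test functions -/
def EXTZ : Prop := ∀ (k l : ℕ) (d d' : ℝ) (Λ : (Fin k → Ix) → Sch →L[ℂ] Completion D)
  (Λ' : (Fin l → Ix) → Sch →L[ℂ] Completion D) J μ (q : MvPolynomial Ix ℂ), MuZ c d Λ →
  MuZ c d' Λ' → (∀ᵐ p ∂c.nu (Λ J gS), p ∈ Fc) → DenZ c (Λ J gS) (Λ' μ gS) (evp q) →
  ∀ f' f : Sch, inner ℂ (Λ J f') (Λ' μ f) =
    ∫ p in Fc, evp q p * (conj (ft (ev f') p) * ft (ev f) p)

/-- removal of the vacuum -/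
def REDZ : Prop := ∀ (k : ℕ) (d : ℝ) (O : (Fin k → Ix) → Sch →L[ℂ] Completion D),
  CovM c.Q k d O → MuZ c d (fun μ => pOZ c (O μ)) ∧
    ∀ μ f v, inner ℂ c.Om v = 0 → inner ℂ v (pOZ c (O μ) f) = inner ℂ v (O μ f)

end

end Vale.Agent.P352X.Poly
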