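import Vale.Agent.P352X.R.POLY.Cov
import Vale.Agent.P352Z.P352X.R.POLY.Defs

open Vale.Agent.P352G

/-!
# P352X, row POLY: uniqueness, conservation and covariance of the densities (helper80)
-/

set_option linter.all false

open MeasureTheory Measure Set Filter Topology
open scoped SchwartzMap ComplexConjugate NNReal ENNReal

namespace Vale.Agent.P352X.Poly

open Vale.Agent.P352.GF Vale.Agent.P352.BW Vale.Agent.P352.H496 Vale.Agent.P352.H755
open UniformSpace (Completion)
open Two

noncomputable section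

variable {D : Type*} [NormedAddCommGroup D] [InnerProductSpace ℂ D] [GrD D] (c : CtxZ D)

theorem uniZ : UNIZ c := fun v w F F' h h' a a' p hp => by
  have b : ContinuousOn (fun p => conj (ft g0 p) * ft g0 p * F p) Fc := cont_gg.continuousOn.mul a
  have b' : ContinuousOn (fun p => conj (ft g0 p) * ft g0 p * F' p) Fc :=
    cont_gg.continuousOn.mul a'
  have := van (H := fun p => conj (ft g0 p) * ft g0 p * F p - conj (ft g0 p) * ft g0 p * F' p)
    (b.sub b') (fun G hG => by
    simp only [mul_sub]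
    rw [integral_sub (cp_int hG b) (cp_int hG b'), ← h G hG, ← h' G hG, sub_self]) p hp
  exact mul_left_cancel₀ (gg_ne p) (sub_eq_zero.1 this)

theorem conZ : CONZ c := fun v w F h0 h a p hp => by
  have e : ∀ m, Continuous fun p : V => ((eta m * p m : ℝ) : ℂ) := fun m => by fun_prop
  have b : ∀ m, ContinuousOn (fun p => conj (ft g0 p) * ft g0 p * F m p) Fc :=
    fun m => cont_gg.continuousOn.mul (a m)
  have := van (H := fun p => ∑ m, ((eta m * p m : ℝ) : ℂ) * (conj (ft g0 p) * ft g0 p * F m p))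
    (continuousOn_finset_sum _ fun m _ => (e m).continuousOn.mul (b m))
    (fun G hG => by
      have k : ∀ m, Cp Fc fun p => G p * ((eta m * p m : ℝ) : ℂ) :=
        fun m => hG.mul (e m).measurable (e m).continuousOn
      simp only [Finset.mul_sum, fun p m x => (mul_assoc (G p) ((eta m * p m : ℝ) : ℂ) x).symm]
      rw [integral_finset_sum _ fun m _ => cp_int (k m) (b m)]
      simp only [← h _ _ (k _), c.bt.adj' (k _).1, map_mul, Complex.conj_ofReal, ← sum_inner,
        h0 _ (cp_cj hG), inner_zero_left]) p hp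
  refine mul_left_cancel₀ (gg_ne p) ?_
  rw [mul_zero, ← this, Finset.mul_sum]
  exact Finset.sum_congr rfl fun m _ => mul_left_comm _ _ _

theorem covZ : COVZ c := fun k l d d' Λ Λ' F h h' hF hc J μ t L p ht hL hp => by
  have hs := inv_pos.2 ht
  have hk := Kin.du_meas t⁻¹ L
  have hA := Kin.du_pair t⁻¹ hL
  have h1 : ∀ p, Kin.du t⁻¹ L (sim t L 0 p) = p := fun p => by
    rw [Kin.du, sim_smul (s := t), (conf_lor (P352.H246.isLor_linv hL)).lin.map_smul, linv_sim _ hL,
      inv_smul_smul₀ ht.ne']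
  have h2 : ∀ p, sim t L 0 (Kin.du t⁻¹ L p) = p := fun p => by
    obtain ⟨q, rfl⟩ := (conf_sim ht hL).cle.surjective p
    rw [Conf.cle_apply, h1]
  have cs := (conf_sim ht hL).cont
  have ms : MapsTo (sim t L 0) Fc Fc := fun q hq => (Fc_sim ht hL q).2 hq
  have b := wt_g0.bd
  set a : (Fin k → Ix) → (Fin l → Ix) → ℂ := fun J' ν =>
    ((t⁻¹ ^ (-d) * ∏ i, L (J' i) (J i) : ℝ) : ℂ) * ((t⁻¹ ^ (-d') * ∏ i, L (ν i) (μ i) : ℝ) : ℂ)
  have g2 : Continuous fun p => conj (ft g0 (sim t L 0 p)) * ft g0 (sim t L 0 p) :=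
    cont_gg.comp cs
  have g1 := g2.continuousOn (s := Fc)
  have c1 : ContinuousOn (fun p => t ^ 4 • (conj (ft g0 p) * ft g0 p * (conj (ft g0 (sim t L 0 p)) *
      ft g0 (sim t L 0 p) * F J μ (sim t L 0 p)))) Fc :=
    (cont_gg.continuousOn.mul (g1.mul ((hc J μ).comp cs.continuousOn ms))).const_smul (t ^ 4)
  have c2 : ∀ J' ν, ContinuousOn (fun p => conj (ft g0 p) * ft g0 p * F J' ν p) Fc :=
    fun J' ν => cont_gg.continuousOn.mul (hc J' ν)
  have c3 : ContinuousOn (fun p => conj (ft g0 (sim t L 0 p)) * ft g0 (sim t L 0 p) *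
      ∑ J', ∑ ν, a J' ν * (conj (ft g0 p) * ft g0 p * F J' ν p)) Fc :=
    g1.mul (continuousOn_finset_sum Finset.univ fun J' _ =>
      continuousOn_finset_sum Finset.univ fun ν _ => (continuousOn_const (c := a J' ν)).mul
        (c2 J' ν))
  have := van (c1.fun_sub c3) (fun G hG => ?_) p hp
  · simp only [sub_eq_zero, Complex.real_smul] at this
    refine mul_left_cancel₀ (mul_ne_zero (Complex.ofReal_ne_zero.2 (pow_pos ht 4).ne')
      (mul_ne_zero (gg_ne p) (gg_ne (sim t L 0 p)))) ?_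
    rw [mul_assoc, mul_assoc _ _ (F _ _ _), this]
    simp only [Finset.mul_sum]
    refine Finset.sum_congr rfl fun J' _ => Finset.sum_congr rfl fun ν _ => ?_
    have e : t⁻¹ ^ (-d) * t⁻¹ ^ (-d') = t ^ 4 * t ^ (d + d' - 4) := by
      rw [Real.inv_rpow ht.le, Real.inv_rpow ht.le, Real.rpow_neg ht.le, Real.rpow_neg ht.le,
        inv_inv, inv_inv, ← Real.rpow_add ht, ← Real.rpow_natCast, ← Real.rpow_add ht]
      congr 1
      push_cast
      ring
    have e' := congrArg (fun x : ℝ => (x : ℂ)) e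
    simp only [a]
    push_cast at e' ⊢
    linear_combination (conj (ft g0 (sim t L 0 p)) * ft g0 (sim t L 0 p) *
      (conj (ft g0 p) * ft g0 p) * F J' ν p * (∏ i, (L (J' i) (J i) : ℂ)) *
        ∏ i, (L (ν i) (μ i) : ℂ)) * e'
  · have k1 : Cp Fc fun q => G (Kin.du t⁻¹ L q) := ⟨hG.1.comp hk, hG.2.elim fun B hB =>
      ⟨_, hB.1.image cs, image_subset_iff.2 fun q hq => ms (hB.2.1 hq), fun q hq =>
        hB.2.2 _ fun e => hq ⟨_, e, h2 q⟩⟩⟩
    have k2 : Cp Fc fun q => G (Kin.du t⁻¹ L q) *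
        (conj (ft g0 (Kin.du t⁻¹ L q)) * ft g0 (Kin.du t⁻¹ L q)) :=
      k1.mul (cont_gg.measurable.comp hk) (cont_gg.comp (Kin.du_cont _ _)).continuousOn
    have k3 : Cp Fc fun p => G p * (conj (ft g0 (sim t L 0 p)) * ft g0 (sim t L 0 p)) :=
      hG.mul g2.measurable g1
    have A1 := hF J μ _ k2
    have A2 : inner ℂ (Λ J gS) (c.bt.Phi (fun q => G (Kin.du t⁻¹ L q) *
        (conj (ft g0 (Kin.du t⁻¹ L q)) * ft g0 (Kin.du t⁻¹ L q))) (Λ' μ gS)) =
        ∑ J', ∑ ν, a J' ν * inner ℂ (Λ J' gS) (c.bt.Phi (fun p => G p *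
          (conj (ft g0 (sim t L 0 p)) * ft g0 (sim t L 0 p))) (Λ' ν gS)) := by
      simp only [mul_left_comm (G (Kin.du t⁻¹ L _))]
      rw [c.bt.mul_apply (b.comp hk).cj (k1.1.mul (b.comp hk)), ← c.bt.adj (b.comp hk),
        c.bt.mul_apply k1.1 (b.comp hk), h.key hs hL hk hA h1 h2, h'.key hs hL hk hA h1 h2]
      simp only [_root_.map_sum, map_smul, sum_inner, inner_sum, inner_smul_left, inner_smul_right,
        Complex.conj_ofReal, Finset.mul_sum]
      rw [Finset.sum_comm]
      refine Finset.sum_congr rfl fun J' _ => Finset.sum_congr rfl fun ν _ => ?_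
      rw [← inner_unitary ((grp_rowZ c).uni t⁻¹ L 0) (Λ J' gS), Phi_WZ hk (ug_utZ hs hL) hA k3.1,
        c.bt.adj b, ← c.bt.mul_apply k1.1 b, ← c.bt.mul_apply b.cj (k1.1.mul b)]
      simp only [h2, a, mul_left_comm (G (Kin.du t⁻¹ L _))]
      ring
    rw [A2, (scF_sim ht hL).integral', inv_inv] at A1
    simp only [h1, hF _ _ _ k3] at A1
    simp only [mul_sub]
    have i2 : ∀ J' ν, IntegrableOn (fun p => a J' ν * (G p * (conj (ft g0 (sim t L 0 p)) *
        ft g0 (sim t L 0 p)) * (conj (ft g0 p) * ft g0 p * F J' ν p))) Fc :=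
      fun J' ν => (cp_int k3 (c2 J' ν)).const_mul _
    rw [integral_sub (cp_int hG c1) (cp_int hG c3), sub_eq_zero]
    simp only [← integral_const_mul, ← integral_smul] at A1
    simp only [← integral_finset_sum _ fun ν _ => i2 _ ν] at A1
    rw [← integral_finset_sum _ fun J' _ => integrable_finset_sum _ fun ν _ => i2 J' ν] at A1
    refine (integral_congr_ae (.of_forall fun q => ?_)).trans
      (A1.symm.trans (integral_congr_ae (.of_forall fun q => ?_)))
    · simp only [Complex.real_smul]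
      ring
    · simp only [Finset.mul_sum]
      exact Finset.sum_congr rfl fun _ _ => Finset.sum_congr rfl fun _ _ => by ring

end

end Vale.Agent.P352X.Poly
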