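import Vale.Agent.P352X.R.POLY.Ex2
import Vale.Agent.P352Z.P352X.R.POLY.Defs

open Vale.Agent.P352G

/-!
# P352X, row POLY: extension to all test functions, removal of the vacuum (helper21)
-/

set_option linter.all false

open MeasureTheory Measure Set Filter Topology
open scoped SchwartzMap ComplexConjugate NNReal ENNReal

namespace Vale.Agent.P352X.Poly

open Vale.Agent.P352.GF Vale.Agent.P352.BW Vale.Agent.P352.H496 Vale.Agent.P352.H755
open UniformSpace (Completion)
open Two

noncomputable section

variable {D : Type*} [NormedAddCommGroup D] [InnerProductSpace ℂ D] [GrD D] {c : CtxZ D}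

/-- from compactly supported functions to bounded functions -/
lemma all_bdZ {v w : Completion D} {F : V → ℂ} (hF : IntegrableOn F Fc)
    (h : ∀ G, Cp Fc G → inner ℂ v (c.bt.Phi G w) = ∫ p in Fc, G p * F p)
    (h1 : ∀ᵐ p ∂c.nu v, p ∈ Fc) {G : V → ℂ} (hG : SN.Bd G) :
    inner ℂ v (c.bt.Phi G w) = ∫ p in Fc, G p * F p := by
  obtain ⟨C, hC0, hC⟩ := hG.nonneg_bound
  let A : ℕ → Set V := fun n => {p | 1 / ((n : ℝ) + 1) ≤ rc p}
  have hc : ∀ n, IsCompact (A n) := fun n => Metric.isCompact_of_isClosed_isBounded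
    (isClosed_le continuous_const cont_rc) ((Metric.isBounded_closedBall (x := 0) (r := n)).subset
      fun p hp => mem_closedBall_zero_iff.2 (by
        have := (inv_le_inv₀ (by positivity) (by positivity)).1
          (((one_div _).symm.trans_le hp).trans (rc_le p))
        linarith))
  have hA := fun n => (hc n).measurableSet
  have e : ∀ n, inner ℂ (c.bt.Phi (fun p => conj ((A n).indicator G p)) v) w =
      ∫ p in Fc, (A n).indicator G p * F p := fun n => by
    rw [← h _ (cp_ind (hc n) (fun p hp => rc_pos.1 (lt_of_lt_of_le Nat.one_div_pos_of_nat hp)) hG),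
      c.bt.adj' (hG.indicator (hA n))]
  have lim : ∀ p ∈ Fc, Tendsto (fun n => (A n).indicator G p) atTop (𝓝 (G p)) := fun p hp =>
    tendsto_const_nhds.congr' (((tendsto_one_div_add_atTop_nhds_zero_nat (𝕜 := ℝ)).eventually
      (eventually_le_nhds (rc_pos.2 hp))).mono fun n hn =>
        (indicator_of_mem (show p ∈ A n from hn) G).symm)
  have bd : ∀ n p, ‖(A n).indicator G p‖ ≤ C := fun n p =>
    (norm_indicator_le_norm_self _ _).trans (hC p)
  have t1 := (c.bt.tendsto_Phi (fun n => (hG.indicator (hA n)).cj) hG.cj (K := C) (v := v)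
    (.of_forall fun n => .of_forall fun p => by simpa using bd n p)
    (h1.mono fun p hp => (Complex.continuous_conj.tendsto _).comp (lim p hp))).inner
    (𝕜 := ℂ) (tendsto_const_nhds (x := w))
  have t2 := tendsto_integral_of_dominated_convergence (μ := volume.restrict Fc)
    (F := fun n p => (A n).indicator G p * F p) (f := fun p => G p * F p) (fun p => C * ‖F p‖)
    (fun n => (hG.indicator (hA n)).1.aestronglyMeasurable.mul hF.1) (hF.norm.const_mul C)
    (fun n => .of_forall fun p => by rw [norm_mul]; gcongr; exact bd n p)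
    ((ae_fc _).mono fun p hp => (lim p hp).mul_const _)
  rw [c.bt.adj' hG]
  exact tendsto_nhds_unique t1 (by simpa only [e] using t2)

theorem extZ (c : CtxZ D) : EXTZ c := fun k l d d' Λ Λ' J μ q h h' h1 e f' f => by
  have := transferZ (H := evp q) wt_g0.bd g0_ne (bd_ft ⟨f', rfl⟩) (bd_ft ⟨f, rfl⟩) (h.rel J f')
    (h'.rel μ f) (fun G hG => all_bdZ ((int_q q g0_in.1 g0_in.1).congr
      (.of_forall fun p => mul_comm _ _)) e h1 hG) (int_q q ⟨f', rfl⟩ ⟨f, rfl⟩) (.const 1)
  simpa only [c.bt.one, one_mul, ContinuousLinearMap.one_apply] using this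

lemma pO_applyZ (O : Sch →L[ℂ] Completion D) (f : Sch) :
    pOZ c O f = O f - inner ℂ c.Om (O f) • c.Om := rfl

theorem redZ (c : CtxZ D) : REDZ c := fun k d O h => by
  refine ⟨fun μ s L a f g hs hL e => ?_, fun μ f v hv => ?_⟩
  · obtain ⟨κ, e⟩ := h.cov μ s L a f g hs hL e
    have h1 : inner ℂ c.Om c.Om = 1 := Kin.inner_om
    have h2 : ∀ v, inner ℂ c.Om (Ug c.Q s L a v) = inner ℂ c.Om v := fun v => by
      rw [Ug_apply _ hs hL]
      exact Kin.inner_om_UZ c.bR hs hL a v
    simp only [← Ug_apply _ hs hL] at e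
    simp only [pO_applyZ, e, map_sub, map_smul, (grp_rowZ c).vac, inner_add_right, inner_sum,
      inner_smul_right, h2, smul_sub, Finset.sum_sub_distrib, add_smul, Finset.sum_smul, smul_smul]
    rw [show inner ℂ c.Om (om c.Q) = 1 from h1, mul_one]
    exact add_sub_add_right_eq_sub _ _ _
  · rw [pO_applyZ, inner_sub_right, inner_smul_right, inner_eq_zero_symm.1 hv, mul_zero, sub_zero]

end

end Vale.Agent.P352X.Poly
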