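import Vale.Agent.P352X.R.POLY.Par
import Vale.Agent.P352Z.P352X.R.POLY.Defs

open Vale.Agent.P352G

/-!
# P352X, row POLY: the parity rule (helper76)
-/

set_option linter.all false

open MeasureTheory Measure Set Filter Topology
open scoped SchwartzMap ComplexConjugate NNReal ENNReal

namespace Vale.Agent.P352X.Poly

open Vale.Agent.P352.GF Vale.Agent.P352.BW Vale.Agent.P352.H496 Vale.Agent.P352.H755
open UniformSpace (Completion)
open Two

noncomputable section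

variable {D : Type*} [NormedAddCommGroup D] [InnerProductSpace ℂ D] [GrD D] {c : CtxZ D}

lemma zf_rLZ {k : ℕ} {d : ℝ} {Λ : (Fin k → Ix) → Sch →L[ℂ] Completion D} {K : V → ℂ}
    (h : MuZ c d Λ) (hK : Ad k K) (A : Fin k → Fin 4) :
    c.bt.Phi (fun p => K (sim 1 rL 0 p) * ft g0 (sim 1 rL 0 p)) (ZfZ c Λ K A) = ((-1) ^ nU A : ℂ) •
      Ug c.Q 1 rL 0 (c.bt.Phi (fun p => K (sim 1 rL 0 p) * ft g0 (sim 1 rL 0 p)) (ZfZ c Λ K A)) := by
  have := h.zs_cov one_pos isLor_rL meas_rL md_rL rL_rL rL_rL (u := fun j => fr (A j))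
    (t := fun j => sg (A j)) (fun j p => fr_rL (A j) p) hK.wt.bd (hK.ok A)
  rw [Phi_WZ meas_rL (ug_utZ one_pos isLor_rL) md_rL ((hK.wt.bd.mul wt_g0.bd).comp meas_rL)]
  simp only [rL_rL]
  rw [Two.ZfZ, this, prod_sg]
  simp

/-- **the parity rule** -/
theorem parZ (c : CtxZ D) : PARZ c := by
  intro k l d d' Λ Λ' K A C κ a b h h' hK hK' hi e hκ
  have b1 : SN.Bd fun p => K (sim 1 rL 0 p) * ft g0 (sim 1 rL 0 p) :=
    (hK.wt.bd.mul wt_g0.bd).comp meas_rL
  set F : V → ℂ := fun p => K (sim 1 rL 0 p) * ft g0 (sim 1 rL 0 p) with hF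
  have n1 : ∀ p, F p ≠ 0 := fun p => mul_ne_zero (hK.wt.ne _) (g0_ne _)
  have e1 : inner ℂ (c.bt.Phi F (ZfZ c Λ K A)) (c.bt.Phi F (ZfZ c Λ' K C)) =
      (-1) ^ (nU A + nU C) * inner ℂ (c.bt.Phi F (ZfZ c Λ K A)) (c.bt.Phi F (ZfZ c Λ' K C)) := by
    conv_lhs => rw [hF, zf_rLZ h hK A, zf_rLZ h' hK' C]
    rw [inner_smul_left, inner_smul_right, inner_unitary ((grp_rowZ c).uni _ _ _), pow_add]
    simp [mul_assoc, hF]
  have e2 : inner ℂ (c.bt.Phi F (ZfZ c Λ K A)) (c.bt.Phi F (ZfZ c Λ' K C)) =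
      κ * ((∫ p in Fc, ‖F p‖ ^ 2 * dn (fun p => K p * ft g0 p) a b p : ℝ) : ℂ) := by
    rw [c.bt.adj b1, ← c.bt.mul_apply b1.cj b1, e _ (b1.cj.mul b1), ← integral_complex_ofReal,
      ← integral_const_mul]
    refine integral_congr_ae (.of_forall fun p => ?_)
    simp only [SN.conj_mul_self]
    push_cast
    ring
  have i1 : IntegrableOn (dn (fun p => K p * ft g0 p) a b) Fc := by
    have := (hi.const_mul κ⁻¹).re
    simpa [← mul_assoc, hκ, IntegrableOn] using this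
  have i2 : IntegrableOn (fun p => ‖F p‖ ^ 2 * dn (fun p => K p * ft g0 p) a b p) Fc := by
    obtain ⟨M, -, hM⟩ := b1.nonneg_bound
    exact i1.bdd_mul (c := M ^ 2) (b1.1.norm.pow_const 2).aestronglyMeasurable
      (.of_forall fun p => by
        rw [Real.norm_of_nonneg (sq_nonneg _)]
        exact pow_le_pow_left₀ (norm_nonneg _) (hM p) 2)
  have pos : ∀ p ∈ Fc, 0 < ‖F p‖ ^ 2 * dn (fun p => K p * ft g0 p) a b p := fun p hp => by
    obtain ⟨h1, h2⟩ := (mem_Fc p).1 hp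
    have := norm_pos_iff.2 (n1 p)
    have := norm_pos_iff.2 (mul_ne_zero (hK.wt.ne p) (g0_ne p))
    unfold dn
    positivity
  have n2 : (∫ p in Fc, ‖F p‖ ^ 2 * dn (fun p => K p * ft g0 p) a b p) ≠ 0 := fun hz => by
    have := (integral_eq_zero_iff_of_nonneg_ae ((ae_fc _).mono fun p hp => (pos p hp).le) i2).1 hz
    have h0 : ∀ᵐ p ∂(volume : Measure V).restrict Fc, False := by
      filter_upwards [this, ae_fc _] with p h1 h2 using (pos p h2).ne' h1
    rw [eventually_false_iff_eq_bot, ae_eq_bot, restrict_eq_zero] at h0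
    exact isOpen_Fc.measure_ne_zero volume ⟨_, thi_mem 0⟩ h0
  by_contra hn
  rw [(Nat.not_even_iff_odd.1 hn).neg_one_pow, e2] at e1
  exact mul_ne_zero hκ (Complex.ofReal_ne_zero.2 n2) (by linear_combination e1 / 2)

end

end Vale.Agent.P352X.Poly
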